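import Vale.Agent.P080C1.Dichotomy.Core

/-!
Reversal of time for flows.
-/

noncomputable section

open MeasureTheory Filter Topology Set
open scoped RealInnerProductSpace

namespace Vale.Agent.P080C1.Dichotomy

variable {A R K : ℝ} {w : ℕ → ℝ → E2 → ℝ} {c : ℕ → ℝ → ℝ} {l : ℕ → ℝ → E2} {bad : ℕ → Set ℝ}

theorem continuous_src {c : ℝ → ℝ} {l : ℝ → E2} (hc : Continuous c) (hl : Continuous l) (x : E2) :
    Continuous fun s => src c l s x :=
  hc.add (hl.inner continuous_const)

theorem abs_src_le {K R : ℝ} {c : ℝ → ℝ} {l : ℝ → E2} (hc : ∀ t, |c t| ≤ K) (hl : ∀ t, ‖l t‖ ≤ K)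
    (t : ℝ) {x : E2} (hx : ‖x‖ ≤ R) : |src c l t x| ≤ K * (1 + R) := by
  have h0 : (0 : ℝ) ≤ K := (norm_nonneg _).trans (hl t)
  calc |src c l t x| ≤ |c t| + |⟪l t, x⟫| := abs_add_le _ _
    _ ≤ K + K * R := add_le_add (hc t)
        ((abs_real_inner_le_norm _ _).trans (mul_le_mul (hl t) hx (norm_nonneg _) h0))
    _ = K * (1 + R) := by ring

theorem integral_src_le_add {K : ℝ} {c : ℝ → ℝ} {l : ℝ → E2} (hc : Continuous c)
    (hl : Continuous l) (hlb : ∀ t, ‖l t‖ ≤ K) {t h : ℝ} (hh : 0 ≤ h) (x z : E2) :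
    (∫ s in t..t + h, src c l s z) ≤ (∫ s in t..t + h, src c l s x) + K * h * ‖z - x‖ := by
  have hi : ∀ y : E2, IntervalIntegrable (fun s => src c l s y) volume t (t + h) := fun y =>
    (continuous_src hc hl y).intervalIntegrable _ _
  have := intervalIntegral.integral_mono_on (by linarith) (hi z)
    ((hi x).add (_root_.intervalIntegrable_const (c := K * ‖z - x‖))) fun s _ => by
      have h1 : ⟪l s, z - x⟫ ≤ K * ‖z - x‖ := (real_inner_le_norm _ _).trans
        (mul_le_mul_of_nonneg_right (hlb s) (norm_nonneg _))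
      have h2 : src c l s z = src c l s x + ⟪l s, z - x⟫ := by
        simp only [src, inner_sub_right]; ring
      linarith
  rw [intervalIntegral.integral_add (hi x) _root_.intervalIntegrable_const,
    intervalIntegral.integral_const] at this
  simpa [mul_comm, mul_left_comm, mul_assoc] using this

/-- Reversing time and changing the sign of the values gives again a flow. -/
theorem Flow.flip (hK : 0 ≤ K) (hF : Flow A R K w c l bad) :
    Flow A R (2 * K) (fun j t x => -w j (-t) x) (fun j t => c j (-t)) (fun j t => l j (-t))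
      (fun j => Neg.neg ⁻¹' bad j) := by
  have neg_mem : ∀ {t : ℝ}, t ∈ Icc (-A) A → -t ∈ Icc (-A) A := fun {t} ht =>
    ⟨by linarith [ht.2], by linarith [ht.1]⟩
  have hK2 : K ≤ 2 * K := by linarith
  refine
    { bound := fun j t ht x hx => ?_
      c_cont := fun j => (hF.c_cont j).comp continuous_neg
      l_cont := fun j => (hF.l_cont j).comp continuous_neg
      c_bound := fun j t => (hF.c_bound j _).trans hK2
      l_bound := fun j t => (hF.l_bound j _).trans hK2
      bad_meas := fun j => measurable_neg (hF.bad_meas j)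
      bad_lim := ?_
      equi := ?_
      upper := ?_
      lower := ?_ }
  · rw [abs_neg]
    exact (hF.bound j _ (neg_mem ht) x hx).trans hK2
  · refine hF.bad_lim.congr fun j => ?_
    have e : Neg.neg ⁻¹' bad j ∩ Icc (-A) A = -(bad j ∩ Icc (-A) A) := by
      ext t
      exact ⟨fun h => ⟨h.1, neg_mem h.2⟩, fun h => ⟨h.1, by simpa using neg_mem h.2⟩⟩
    rw [measureReal_def, measureReal_def, e, Measure.measure_neg]
  · intro γ hγ
    obtain ⟨r, hr, h⟩ := hF.equi γ hγ
    refine ⟨r, hr, h.mono fun j hj t ht t' ht' x x' hx hx' h1 h2 => ?_⟩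
    have := hj (-t) (neg_mem ht) (-t') (neg_mem ht') x x' hx hx'
      (by rw [neg_sub_neg, abs_sub_comm]; exact h1) h2
    rwa [neg_sub_neg, abs_sub_comm]
  · intro γ h₀ hγ hh₀
    refine (hF.upper γ h₀ hγ hh₀).mono fun j hj t h x z hh ht hth hx hz => ?_
    have h1 := hj (-(t + h)) h z x hh (neg_mem hth) (by simpa using neg_mem ht) hz hx
    have h2 := integral_src_le_add (t := -(t + h)) (hF.c_cont j) (hF.l_cont j) (hF.l_bound j)
      (hh₀.le.trans hh) x z
    have e : (∫ s in t..t + h, src (fun u => c j (-u)) (fun u => l j (-u)) s x) =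
        ∫ s in -(t + h)..-(t + h) + h, src (c j) (l j) s x := by
      rw [show -(t + h) + h = -t by ring]
      exact intervalIntegral.integral_comp_neg (fun s => src (c j) (l j) s x)
    rw [show -(t + h) + h = -t by ring, norm_sub_rev x z] at h1
    rw [show -(t + h) + h = -t by ring] at h2 e
    show -w j (-(t + h)) z - -w j (-t) x ≤ _
    rw [e]
    linarith
  · obtain ⟨h₁, hh₁, hl⟩ := hF.lower
    refine ⟨h₁, hh₁, fun γ h₀ hγ hh₀ => (hl γ h₀ hγ hh₀).mono fun j hj t h x hh hh' ht hb hx => ?_⟩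
    obtain ⟨f1, f2⟩ := hj (-t) h x hh hh' (neg_mem ht) hb hx
    constructor
    · intro hA
      obtain ⟨z, hz, hz'⟩ := f2 (by linarith)
      refine ⟨z, hz, ?_⟩
      show ‖z - x‖ ^ 2 / (2 * h) + h * src (c j) (l j) (-t) x - γ ≤ -w j (-(t + h)) z - -w j (-t) x
      rw [show -(t + h) = -t - h by ring]
      linarith
    · intro hA
      obtain ⟨z, hz, hz'⟩ := f1 (by linarith)
      refine ⟨z, hz, ?_⟩
      show ‖z - x‖ ^ 2 / (2 * h) + h * src (c j) (l j) (-t) x - γ ≤ -w j (-t) x - -w j (-(t - h)) z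
      rw [show -(t - h) = -t + h by ring]
      linarith

end Vale.Agent.P080C1.Dichotomy
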