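import Vale.Agent.P080C1.Dichotomy.CoreIface
import Vale.Agent.P080C1.Dichotomy.Core.Flip

/-!
The transversal second differences of a flow. Along a chain of lower steps over a fixed time `T`
the upper inequality is applied to the two translated chains `z k ± (1 - k / N) • a`, and the linear
parts of the source cancel.
-/

noncomputable section

open MeasureTheory Filter Topology Set
open scoped RealInnerProductSpace

namespace Vale.Agent.P080C1.Dichotomy

namespace SecondDiff

theorem le_quad {μ h d : ℝ} (hμ : 0 < μ) (hh : 0 < h) :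
    d ≤ μ * (d ^ 2 / (2 * h)) + h / (2 * μ) := by
  have e : μ * (d ^ 2 / (2 * h)) + h / (2 * μ) - d = (μ * d - h) ^ 2 / (2 * h * μ) := by
    field_simp
    ring
  have : 0 ≤ (μ * d - h) ^ 2 / (2 * h * μ) := by positivity
  linarith

theorem integral_src_split {c : ℝ → ℝ} {l : ℝ → E2} (hc : Continuous c) (hl : Continuous l)
    (t u : ℝ) (x a : E2) :
    (∫ s in t..u, src c l s (x + a)) + (∫ s in t..u, src c l s (x - a)) =
      2 * ∫ s in t..u, src c l s x := by
  rw [← intervalIntegral.integral_const_mul, ← intervalIntegral.integral_add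
    ((continuous_src hc hl _).intervalIntegrable _ _)
    ((continuous_src hc hl _).intervalIntegrable _ _)]
  refine intervalIntegral.integral_congr fun s _ => ?_
  simp only [src, inner_add_right, inner_sub_right]
  ring

/-- The data of one index of a flow at a fixed step `h`. -/
structure Frame (A R K h γ : ℝ) (w : ℝ → E2 → ℝ) (c : ℝ → ℝ) (l : ℝ → E2) (B : Set ℝ) : Prop where
  hh : 0 < h
  hR : 0 < R
  hK : 0 < K
  hγ : 0 < γ
  bound : ∀ t ∈ Icc (-A) A, ∀ x : E2, ‖x‖ ≤ R → |w t x| ≤ K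
  cc : Continuous c
  cl : Continuous l
  c_bound : ∀ t, |c t| ≤ K
  l_bound : ∀ t, ‖l t‖ ≤ K
  upper : ∀ t ∈ Icc (-A) A, t + h ∈ Icc (-A) A → ∀ x z : E2, ‖x‖ ≤ R → ‖z‖ ≤ R →
    w (t + h) z - w t x ≤
      ‖z - x‖ ^ 2 / (2 * h) + (∫ s in t..t + h, src c l s x) + K * h * ‖z - x‖ + γ
  lower : ∀ t ∈ Icc (-A) A, t + h ∈ Icc (-A) A → t ∉ B → ∀ x : E2, ‖x‖ ≤ R / 2 →
    ∃ z : E2, ‖z‖ ≤ R ∧ ‖z - x‖ ^ 2 / (2 * h) + h * src c l t x - γ ≤ w (t + h) z - w t x

variable {A R K h γ : ℝ} {w : ℝ → E2 → ℝ} {c : ℝ → ℝ} {l : ℝ → E2} {B : Set ℝ}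

/-- The length of a lower step. -/
theorem Frame.step_le (F : Frame A R K h γ w c l B) (hh1 : h ≤ 1) (hγ1 : γ ≤ 1) {t : ℝ}
    (ht : t ∈ Icc (-A) A) (hth : t + h ∈ Icc (-A) A) {x z : E2} (hx : ‖x‖ ≤ R) (hz : ‖z‖ ≤ R)
    (hl : ‖z - x‖ ^ 2 / (2 * h) + h * src c l t x - γ ≤ w (t + h) z - w t x) :
    ‖z - x‖ ≤ √h * (2 * K + K * (1 + R) + 2) := by
  have hh := F.hh
  have hq : ‖z - x‖ ^ 2 / (2 * h) ≤ 2 * K + K * (1 + R) + 1 := by
    have e1 := abs_le.1 (F.bound _ ht x hx)
    have e2 := abs_le.1 (F.bound _ hth z hz)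
    have e3 := abs_src_le F.c_bound F.l_bound t hx
    have e4 : |h * src c l t x| ≤ K * (1 + R) := by
      rw [abs_mul, abs_of_pos hh]
      exact (mul_le_mul hh1 e3 (abs_nonneg _) zero_le_one).trans_eq (one_mul _)
    linarith [(abs_le.1 e4).1]
  have hs : 0 < √h := Real.sqrt_pos.2 hh
  refine (le_quad hs hh (d := ‖z - x‖)).trans ?_
  have e : h / (2 * √h) = √h / 2 := by
    rw [div_eq_div_iff (by positivity) two_ne_zero]
    linear_combination (-2 : ℝ) * Real.mul_self_sqrt hh.le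
  rw [e]
  nlinarith

/-- The source exceeds its value at a good time on average by at most twice the excess at the
centre. -/
theorem Frame.excess_le (F : Frame A R K h γ w c l B) (hh1 : h ≤ 1) (hγ1 : γ ≤ 1) {t : ℝ}
    (ht : t ∈ Icc (-A) A) (hth : t + h ∈ Icc (-A) A) (hB : t ∉ B) {x : E2} (hx : ‖x‖ ≤ R / 2) :
    (∫ s in t..t + h, src c l s x) - h * src c l t x ≤
      2 * ((∫ s in t..t + h, c s) - h * c t) +
        K * h * (√h * (2 * K + K * (1 + R) + 2)) + 2 * γ := by
  have hx' : ‖-x‖ ≤ R := by rw [norm_neg]; linarith [F.hR]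
  obtain ⟨z, hz, hl⟩ := F.lower t ht hth hB (-x) (by rwa [norm_neg])
  have hd := F.step_le hh1 hγ1 ht hth hx' hz hl
  have hu := F.upper t ht hth (-x) z hx' hz
  have hd' := mul_le_mul_of_nonneg_left hd (mul_nonneg F.hK.le F.hh.le)
  have e : (∫ s in t..t + h, src c l s x) + (∫ s in t..t + h, src c l s (-x)) =
      2 * ∫ s in t..t + h, c s := by
    have := integral_src_split F.cc F.cl t (t + h) 0 x
    simpa [src] using this
  have e' : src c l t x + src c l t (-x) = 2 * c t := by simp [src]; ring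
  have e'' : h * src c l t x + h * src c l t (-x) = 2 * (h * c t) := by
    rw [← mul_add, e']; ring
  linarith

/-- One step of the chain. -/
theorem Frame.step (F : Frame A R K h γ w c l B) (hh1 : h ≤ 1) (hγ1 : γ ≤ 1) {t : ℝ}
    (ht : t ∈ Icc (-A) A) (hth : t + h ∈ Icc (-A) A) (hB : t ∉ B) {x z b b' : E2} (hz : ‖z‖ ≤ R / 4)
    (hx : ‖x‖ ≤ R / 4) (hb : ‖b‖ ≤ R / 4) (hb' : ‖b'‖ ≤ R / 4)
    (hl : ‖z - x‖ ^ 2 / (2 * h) + h * src c l t x - γ ≤ w (t + h) z - w t x) :
    (w (t + h) (z + b') + w (t + h) (z - b') - 2 * w (t + h) z) -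
        (w t (x + b) + w t (x - b) - 2 * w t x) ≤
      ‖b' - b‖ ^ 2 / h + 4 * ((∫ s in t..t + h, c s) - h * c t) +
        4 * K * h * (√h * (2 * K + K * (1 + R) + 2)) + 2 * K * h * ‖b' - b‖ + 8 * γ := by
  have hR := F.hR
  have n1 : ∀ u v : E2, ‖u‖ ≤ R / 4 → ‖v‖ ≤ R / 4 → ‖u + v‖ ≤ R := fun u v h1 h2 =>
    (norm_add_le _ _).trans (by linarith)
  have n2 : ∀ u v : E2, ‖u‖ ≤ R / 4 → ‖v‖ ≤ R / 4 → ‖u - v‖ ≤ R := fun u v h1 h2 =>
    (norm_sub_le _ _).trans (by linarith)
  have u1 := F.upper t ht hth (x + b) (z + b') (n1 x b hx hb) (n1 z b' hz hb')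
  have u2 := F.upper t ht hth (x - b) (z - b') (n2 x b hx hb) (n2 z b' hz hb')
  have ex := F.excess_le hh1 hγ1 ht hth hB (x := x) (by linarith)
  have hd := F.step_le hh1 hγ1 ht hth (x := x) (z := z) (by linarith) (by linarith) hl
  have e1 : z + b' - (x + b) = (z - x) + (b' - b) := by abel
  have e2 : z - b' - (x - b) = (z - x) - (b' - b) := by abel
  rw [e1] at u1
  rw [e2] at u2
  have hsq : ‖(z - x) + (b' - b)‖ ^ 2 / (2 * h) + ‖(z - x) - (b' - b)‖ ^ 2 / (2 * h) =
      2 * (‖z - x‖ ^ 2 / (2 * h)) + ‖b' - b‖ ^ 2 / h := by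
    have h2 : ‖(z - x) + (b' - b)‖ ^ 2 + ‖(z - x) - (b' - b)‖ ^ 2 =
        2 * (‖z - x‖ ^ 2 + ‖b' - b‖ ^ 2) := by
      rw [norm_add_sq_real (z - x), norm_sub_sq_real (z - x)]; ring
    field_simp [F.hh.ne']
    linarith
  have t1 := mul_le_mul_of_nonneg_left ((norm_add_le (z - x) (b' - b)).trans
    (add_le_add hd le_rfl)) (mul_nonneg F.hK.le F.hh.le)
  have t2 := mul_le_mul_of_nonneg_left ((norm_sub_le (z - x) (b' - b)).trans
    (add_le_add hd le_rfl)) (mul_nonneg F.hK.le F.hh.le)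
  have e3 := integral_src_split F.cc F.cl t (t + h) x b
  linarith

/-- The chain of `N` lower steps of length `h`. -/
theorem Frame.chain (F : Frame A R K h γ w c l B) (hh1 : h ≤ 1) {N : ℕ} (hN : 1 ≤ N)
    (hγN : N * γ ≤ 1) {T : ℝ} (hT : h * N = T) (hT1 : T ≤ 1) {lam : ℝ} (hlam : 0 < lam)
    (hE : lam * (2 * K + K * (1 + R) + 1) + T / (2 * lam) ≤ 3 * R / 16) {s : ℝ}
    (hs : -A ≤ s) (hsT : s + T ≤ A) (hgood : ∀ k < N, s + k * h ∉ B) {x a : E2}
    (hx : ‖x‖ ≤ R / 16) (ha : ‖a‖ ≤ R / 4) :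
    -(‖a‖ ^ 2 / T + 4 * ((∫ u in s..s + T, c u) - h * ∑ k ∈ Finset.range N, c (s + k * h)) +
        4 * K * T * (√h * (2 * K + K * (1 + R) + 2)) + 2 * K * h * ‖a‖ + 8 * (N * γ)) ≤
      w s (x + a) + w s (x - a) - 2 * w s x := by
  have hh := F.hh
  have hK := F.hK
  have hR := F.hR
  have hNpos : (0 : ℝ) < N := by exact_mod_cast hN
  have hγ1 : γ ≤ 1 := by
    have : (1 : ℝ) ≤ N := by exact_mod_cast hN
    nlinarith [F.hγ]
  set E := 2 * K + K * (1 + R) + 1 with hEdef
  have hEz : ∀ (k : ℕ) (z : E2), k ≤ N → ‖z‖ ≤ R →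
      ‖z - x‖ ≤ lam * (w (s + k * h) z - w s x + k * h * (K * (1 + R)) + k * γ) +
        k * h / (2 * lam) → ‖z‖ ≤ R / 4 := by
    intro k z hk hz hzx
    have hkN : (k : ℝ) ≤ N := by exact_mod_cast hk
    have hkT : k * h ≤ T := by rw [← hT, mul_comm h]; exact mul_le_mul_of_nonneg_right hkN hh.le
    have hk0 : (0 : ℝ) ≤ k * h := by positivity
    have e1 := abs_le.1 (F.bound s ⟨hs, by linarith⟩ x (by linarith))
    have e2 := abs_le.1 (F.bound (s + k * h) ⟨by linarith, by linarith⟩ z hz)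
    have e3 : k * h * (K * (1 + R)) ≤ K * (1 + R) :=
      mul_le_of_le_one_left (by positivity) (hkT.trans hT1)
    have e4 : (k : ℝ) * γ ≤ 1 := (mul_le_mul_of_nonneg_right hkN F.hγ.le).trans hγN
    have e5 : lam * (w (s + k * h) z - w s x + k * h * (K * (1 + R)) + k * γ) ≤ lam * E :=
      mul_le_mul_of_nonneg_left (by linarith) hlam.le
    have e6 : k * h / (2 * lam) ≤ T / (2 * lam) := by gcongr
    calc ‖z‖ = ‖x + (z - x)‖ := by abel_nf
      _ ≤ ‖x‖ + ‖z - x‖ := norm_add_le _ _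
      _ ≤ R / 4 := by linarith
  have main : ∀ k ≤ N, ∃ z : E2, ‖z‖ ≤ R / 4 ∧
      ‖z - x‖ ≤ lam * (w (s + k * h) z - w s x + k * h * (K * (1 + R)) + k * γ) +
        k * h / (2 * lam) ∧
      (w (s + k * h) (z + (1 - k / N : ℝ) • a) + w (s + k * h) (z - (1 - k / N : ℝ) • a) -
          2 * w (s + k * h) z) - (w s (x + a) + w s (x - a) - 2 * w s x) ≤
        k * (‖a‖ ^ 2 / (N * T) + 4 * K * h * (√h * (2 * K + K * (1 + R) + 2)) +
            2 * K * h * (‖a‖ / N) + 8 * γ) +
          4 * ((∫ u in s..s + k * h, c u) - h * ∑ i ∈ Finset.range k, c (s + i * h)) := by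
    intro k
    induction k with
    | zero =>
      intro _
      exact ⟨x, by linarith, by simp, by simp⟩
    | succ k ih =>
      intro hk
      obtain ⟨z, hz, hzx, hS⟩ := ih (by omega)
      have hkN : (k : ℝ) + 1 ≤ N := by exact_mod_cast hk
      have hkT : (k + 1 : ℝ) * h ≤ T := by
        rw [← hT, mul_comm h]; exact mul_le_mul_of_nonneg_right hkN hh.le
      have hk0 : (0 : ℝ) ≤ k * h := by positivity
      have ht : s + k * h ∈ Icc (-A) A := ⟨by linarith, by linarith⟩
      have hth : s + k * h + h ∈ Icc (-A) A := ⟨by linarith, by linarith⟩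
      obtain ⟨z', hz'R, hl⟩ := F.lower _ ht hth (hgood k (by omega)) z (by linarith)
      have htime : s + ((k + 1 : ℕ) : ℝ) * h = s + k * h + h := by push_cast; ring
      have hzx' : ‖z' - x‖ ≤ lam * (w (s + (k + 1 : ℕ) * h) z' - w s x +
          (k + 1 : ℕ) * h * (K * (1 + R)) + (k + 1 : ℕ) * γ) + (k + 1 : ℕ) * h / (2 * lam) := by
        have h1 := le_quad hlam hh (d := ‖z' - z‖)
        have h2 : -(h * (K * (1 + R))) ≤ h * src c l (s + k * h) z := by
          rw [← mul_neg]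
          exact mul_le_mul_of_nonneg_left
            (abs_le.1 (abs_src_le F.c_bound F.l_bound _ (by linarith))).1 hh.le
        have h3 : lam * (‖z' - z‖ ^ 2 / (2 * h)) ≤
            lam * (w (s + k * h + h) z' - w (s + k * h) z + h * (K * (1 + R)) + γ) :=
          mul_le_mul_of_nonneg_left (by linarith) hlam.le
        have h4 : ‖z' - x‖ ≤ ‖z' - z‖ + ‖z - x‖ := norm_sub_le_norm_sub_add_norm_sub _ _ _
        rw [htime]
        push_cast
        rw [add_mul (k : ℝ) 1 h, one_mul, add_mul _ h (K * (1 + R)), add_mul (k : ℝ) 1 γ, one_mul,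
          add_div]
        linarith
      have hz' : ‖z'‖ ≤ R / 4 := hEz (k + 1) z' hk hz'R hzx'
      refine ⟨z', hz', hzx', ?_⟩
      have hcoef : ∀ i : ℝ, 0 ≤ i → i ≤ N → ‖(1 - i / N : ℝ) • a‖ ≤ R / 4 := by
        intro i hi hiN
        rw [norm_smul, Real.norm_of_nonneg (sub_nonneg.2 ((div_le_one hNpos).2 hiN))]
        exact (mul_le_of_le_one_left (norm_nonneg _)
          (sub_le_self _ (div_nonneg hi hNpos.le))).trans ha
      have hst := F.step hh1 hγ1 ht hth (hgood k (by omega)) hz' hz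
        (hcoef k (by positivity) (by linarith)) (hcoef (k + 1) (by positivity) hkN) hl
      have hb : ‖(1 - (k + 1 : ℝ) / N) • a - (1 - (k : ℝ) / N) • a‖ = ‖a‖ / N := by
        rw [← sub_smul, show (1 - (k + 1 : ℝ) / N) - (1 - (k : ℝ) / N) = -(1 / N) by ring,
          norm_smul, Real.norm_eq_abs, abs_neg, abs_of_pos (by positivity)]
        ring
      have hb2 : (‖a‖ / N) ^ 2 / h = ‖a‖ ^ 2 / (N * T) := by
        rw [← hT]; field_simp
      rw [hb, hb2] at hst
      rw [htime, Finset.sum_range_succ, ← intervalIntegral.integral_add_adjacent_intervals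
        (F.cc.intervalIntegrable _ _) (F.cc.intervalIntegrable (s + k * h) _)]
      push_cast
      linarith
  obtain ⟨z, -, -, hS⟩ := main N le_rfl
  have e : (N : ℝ) * (‖a‖ ^ 2 / (N * T) + 4 * K * h * (√h * (2 * K + K * (1 + R) + 2)) +
      2 * K * h * (‖a‖ / N) + 8 * γ) = ‖a‖ ^ 2 / T +
        4 * K * T * (√h * (2 * K + K * (1 + R) + 2)) + 2 * K * h * ‖a‖ + 8 * (N * γ) := by
    rw [← hT]; field_simp
  rw [show s + (N : ℝ) * h = s + T by rw [← hT]; ring, div_self hNpos.ne', sub_self, zero_smul,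
    add_zero, sub_zero, e] at hS
  linarith

/-- Outside a small set there is a start at which the Riemann sum is almost the largest. -/
theorem exists_start {A K : ℝ} {c : ℝ → ℝ} (hc : Continuous c) (hcb : ∀ t, |c t| ≤ K) (hK : 0 < K)
    {B : Set ℝ} (hB : MeasurableSet B) {t h T : ℝ} {N : ℕ} (hh : 0 < h) (hT : h * N = T)
    (ht : -A ≤ t - h) (htT : t + T ≤ A)
    (hsmall : (2 * N + 5) * (N * volume.real (B ∩ Icc (-A) A)) < h) :
    ∃ s ∈ Icc (t - h) t, (∀ k < N, s + k * h ∉ B) ∧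
      (∫ u in s..s + T, c u) - h * ∑ k ∈ Finset.range N, c (s + k * h) ≤ 6 * K * h := by
  classical
  set g : ℝ → ℝ := fun s => ∑ k ∈ Finset.range N, c (s + k * h) with hg
  set M := ((∫ u in t..t + T, c u) - 4 * K * h) / h with hM
  set D : Set ℝ := ⋃ k ∈ Finset.range N, (fun s : ℝ => s + k * h) ⁻¹' (B ∩ Icc (-A) A) with hD
  have hT0 : 0 ≤ T := by rw [← hT]; positivity
  have ci : ∀ p q : ℝ, IntervalIntegrable c volume p q := fun p q => hc.intervalIntegrable p q
  have cb : ∀ p q : ℝ, |∫ u in p..q, c u| ≤ K * |q - p| := fun p q => by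
    simpa [Real.norm_eq_abs] using
      intervalIntegral.norm_integral_le_of_norm_le_const (f := c) (a := p) (b := q)
        fun u _ => (Real.norm_eq_abs _).trans_le (hcb u)
  suffices ∃ s ∈ Icc (t - h) t, (∀ k < N, s + k * h ∉ B) ∧ M ≤ g s by
    obtain ⟨s, hs, hgood, hMg⟩ := this
    refine ⟨s, hs, hgood, ?_⟩
    rw [hM, div_le_iff₀ hh] at hMg
    have e : (∫ u in s..s + T, c u) - (∫ u in t..t + T, c u) =
        (∫ u in s..t, c u) - ∫ u in (s + T)..(t + T), c u :=
      intervalIntegral.integral_interval_sub_interval_comm (ci _ _) (ci _ _) (ci _ _)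
    have h1 := abs_le.1 (cb s t)
    have h2 := abs_le.1 (cb (s + T) (t + T))
    rw [add_sub_add_right_eq_sub] at h2
    have h3 : K * |t - s| ≤ K * h :=
      mul_le_mul_of_nonneg_left (by rw [abs_of_nonneg] <;> linarith [hs.1, hs.2]) hK.le
    show _ - h * g s ≤ _
    linarith
  by_contra hcon
  push Not at hcon
  have hgN : ∀ s, g s ≤ N * K := fun s =>
    (Finset.sum_le_sum fun k _ => (le_abs_self _).trans (hcb _)).trans_eq (by simp)
  have hM0 : |M| ≤ (N + 4) * K := by
    rw [hM, abs_div, abs_of_pos hh, div_le_iff₀ hh]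
    have h1 := abs_le.1 (cb t (t + T))
    rw [add_sub_cancel_left, abs_of_nonneg hT0, ← hT] at h1
    rw [← hT, abs_le]
    constructor <;> nlinarith [mul_pos hK hh]
  have hDm : MeasurableSet D := MeasurableSet.biUnion (Finset.range N).countable_toSet fun k _ =>
    (measurable_add_const _) (hB.inter measurableSet_Icc)
  have hle : ∀ s ∈ Icc (t - h) t,
      g s ≤ M + D.indicator (fun _ => (2 * N + 4) * K) s := by
    intro s hs
    by_cases hsD : s ∈ D
    · rw [indicator_of_mem hsD]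
      linarith [hgN s, (abs_le.1 hM0).1]
    · rw [indicator_of_notMem hsD, add_zero]
      refine (hcon s hs fun k hk hkB => hsD ?_).le
      refine mem_iUnion₂.2 ⟨k, Finset.mem_range.2 hk, hkB, ?_, ?_⟩
      · have : (0 : ℝ) ≤ k * h := by positivity
        linarith [hs.1]
      · have : (k : ℝ) * h ≤ T := by
          rw [← hT, mul_comm h]; gcongr
        linarith [hs.2]
  have hint : IntervalIntegrable (D.indicator fun _ => (2 * N + 4) * K : ℝ → ℝ) volume (t - h) t := by
    rw [intervalIntegrable_iff]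
    exact IntegrableOn.indicator (integrableOn_const measure_Ioc_lt_top.ne) hDm
  have hgc : Continuous g :=
    continuous_finsetSum _ fun k _ => hc.comp (continuous_id.add continuous_const)
  have h1 := intervalIntegral.integral_mono_on (by linarith) (hgc.intervalIntegrable _ _)
    ((_root_.intervalIntegrable_const (c := M)).add hint) hle
  rw [intervalIntegral.integral_add _root_.intervalIntegrable_const hint,
    intervalIntegral.integral_const, smul_eq_mul] at h1
  have hD' : (∫ s in (t - h)..t, D.indicator (fun _ => (2 * N + 4) * K) s) ≤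
      (2 * N + 4) * K * (N * volume.real (B ∩ Icc (-A) A)) := by
    have hfin : volume (B ∩ Icc (-A) A) ≠ ⊤ :=
      measure_ne_top_of_subset inter_subset_right measure_Icc_lt_top.ne
    have hpre : ∀ k : ℕ, volume ((fun s : ℝ => s + k * h) ⁻¹' (B ∩ Icc (-A) A)) =
        volume (B ∩ Icc (-A) A) := fun k => measure_preimage_add_right volume _ _
    rw [intervalIntegral.integral_of_le (by linarith), setIntegral_indicator hDm, setIntegral_const,
      smul_eq_mul, mul_comm _ ((2 * N + 4 : ℝ) * K)]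
    refine mul_le_mul_of_nonneg_left ?_ (by positivity)
    have hDfin : volume D ≠ ⊤ := by
      refine ((measure_biUnion_finset_le _ _).trans_lt ?_).ne
      rw [Finset.sum_congr rfl fun k _ => hpre k, Finset.sum_const, Finset.card_range, nsmul_eq_mul]
      exact ENNReal.mul_lt_top (ENNReal.natCast_lt_top N) hfin.lt_top
    refine (measureReal_mono inter_subset_right hDfin).trans ?_
    refine (measureReal_biUnion_finset_le _ _).trans_eq ?_
    simp only [measureReal_def]
    rw [Finset.sum_congr rfl fun k _ => congrArg ENNReal.toReal (hpre k), Finset.sum_const,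
      Finset.card_range, nsmul_eq_mul]
  have h2 : (∫ s in (t - h)..t, g s) = ∫ u in (t - h)..(t - h) + T, c u := by
    simp only [hg]
    rw [intervalIntegral.integral_finsetSum (f := fun (k : ℕ) (s : ℝ) => c (s + k * h)) fun k _ =>
      (hc.comp (continuous_id.add continuous_const)).intervalIntegrable _ _]
    have hsum := intervalIntegral.sum_integral_adjacent_intervals
      (a := fun k : ℕ => t - h + k * h) (n := N) fun k _ => ci _ _
    rw [show t - h + T = t - h + (N : ℕ) * h by rw [← hT]; ring]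
    simp only [Nat.cast_zero, zero_mul, add_zero] at hsum
    rw [← hsum]
    refine Finset.sum_congr rfl fun k _ => ?_
    rw [intervalIntegral.integral_comp_add_right]
    congr 1
    push_cast
    ring
  have h3 : (∫ u in t..t + T, c u) ≤ (∫ u in (t - h)..(t - h) + T, c u) + 2 * K * h := by
    have e : (∫ u in t..t + T, c u) - (∫ u in (t - h)..(t - h) + T, c u) =
        (∫ u in t..(t - h), c u) - ∫ u in (t + T)..(t - h + T), c u :=
      intervalIntegral.integral_interval_sub_interval_comm (ci _ _) (ci _ _) (ci _ _)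
    have h1 := abs_le.1 (cb t (t - h))
    have h2 := abs_le.1 (cb (t + T) (t - h + T))
    rw [show t - h - t = -h by ring, abs_neg, abs_of_pos hh] at h1
    rw [show t - h + T - (t + T) = -h by ring, abs_neg, abs_of_pos hh] at h2
    linarith
  have hβ : 0 ≤ (N : ℝ) * volume.real (B ∩ Icc (-A) A) := by positivity
  have h4 := mul_lt_mul_of_pos_left hsmall hK
  have hMh : (t - (t - h)) * M = (∫ u in t..t + T, c u) - 4 * K * h := by
    rw [hM]; field_simp; ring
  rw [hMh, h2] at h1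
  nlinarith [mul_nonneg hK.le hβ, mul_pos hK hh]

/-- The lower bound of the second differences. -/
theorem lower_bound {A R K : ℝ} (hA : 0 < A) (hR : 0 < R) (hK : 0 < K) :
    ∃ C : ℝ, 0 < C ∧ ∀ (w : ℕ → ℝ → E2 → ℝ) (c : ℕ → ℝ → ℝ) (l : ℕ → ℝ → E2) (bad : ℕ → Set ℝ),
      Flow A R K w c l bad → ∀ γ : ℝ, 0 < γ → ∀ᶠ j in atTop,
        ∀ t ∈ Icc (-(A / 4)) (A / 4), ∀ x a : E2, ‖x‖ ≤ R / 16 → ‖a‖ ≤ R / 16 →
          -(C * ‖a‖ ^ 2 + γ) ≤ w j t (x + a) + w j t (x - a) - 2 * w j t x := by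
  set E := 2 * K + K * (1 + R) + 1 with hE
  have hE0 : 0 < E := by positivity
  set lam := R / (8 * E) with hlamdef
  have hlam : 0 < lam := by positivity
  set T := min (min 1 (A / 4)) (lam * R / 8) with hTdef
  have hT : 0 < T := lt_min (lt_min one_pos (by linarith)) (by positivity)
  have hT1 : T ≤ 1 := (min_le_left _ _).trans (min_le_left _ _)
  have hTA : T ≤ A / 4 := (min_le_left _ _).trans (min_le_right _ _)
  have hTE : lam * E + T / (2 * lam) ≤ 3 * R / 16 := by
    have h1 : lam * E = R / 8 := by rw [hlamdef]; field_simp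
    have h2 : T / (2 * lam) ≤ R / 16 := by
      rw [div_le_iff₀ (by positivity)]
      exact (min_le_right _ _).trans_eq (by ring)
    linarith
  refine ⟨1 / T, by positivity, fun w c l bad hF γ hγ => ?_⟩
  obtain ⟨r, hr, heq⟩ := hF.equi (γ / 16) (by linarith)
  obtain ⟨h₁, hh₁, hlow⟩ := hF.lower
  -- the step
  obtain ⟨N, hN, hN1⟩ : ∃ N : ℕ, (T / N ≤ min (min r h₁) (min (A / 4) 1) ∧
      24 * K * (T / N) + 4 * K * T * (√(T / N) * (2 * K + K * (1 + R) + 2)) +
        2 * K * (T / N) * R ≤ γ / 4) ∧ 1 ≤ N := by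
    have h0 : Tendsto (fun N : ℕ => T / N) atTop (𝓝 0) := tendsto_const_div_atTop_nhds_zero_nat T
    have hf : Continuous fun h : ℝ => 24 * K * h +
        4 * K * T * (√h * (2 * K + K * (1 + R) + 2)) + 2 * K * h * R := by fun_prop
    have h1 := (hf.tendsto 0).comp h0
    simp only [mul_zero, Real.sqrt_zero, zero_mul, add_zero] at h1
    exact ((h0.eventually_le_const (by positivity)).and
      (h1.eventually_le_const (by linarith)) |>.and (eventually_ge_atTop 1)).exists
  obtain ⟨hNh, hNerr⟩ := hN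
  simp only [le_min_iff] at hNh
  obtain ⟨⟨hr', hh1'⟩, hA', h1'⟩ := hNh
  have hNpos : (0 : ℝ) < N := by exact_mod_cast hN1
  set h := T / N with hhdef
  have hh : 0 < h := by positivity
  have hT' : h * N = T := by rw [hhdef]; field_simp
  set g := min 1 (γ / 32) / N with hgdef
  have hg : 0 < g := by positivity
  have hNg : N * g = min 1 (γ / 32) := by rw [hgdef]; field_simp
  have hmeas : ∀ᶠ j in atTop, (2 * N + 5) * (N * volume.real (bad j ∩ Icc (-A) A)) < h := by
    have := (hF.bad_lim.const_mul ((N : ℝ))).const_mul ((2 : ℝ) * N + 5)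
    simp only [mul_zero] at this
    exact this.eventually_lt_const hh
  filter_upwards [heq, hF.upper g h hg hh, hlow g h hg hh, hmeas] with j je ju jl jm t ht x a hx ha
  have F : Frame A R K h g (w j) (c j) (l j) (bad j) :=
    ⟨hh, hR, hK, hg, hF.bound j, hF.c_cont j, hF.l_cont j, hF.c_bound j, hF.l_bound j,
      fun t ht hth x z hx hz => ju t h x z le_rfl ht hth hx hz,
      fun t ht hth hb x hx => (jl t h x le_rfl hh1' ht hb hx).1 hth.2⟩
  obtain ⟨s, hs, hgood, hsum⟩ := exists_start (A := A) (hF.c_cont j) (hF.c_bound j) hK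
    (hF.bad_meas j) hh hT' (t := t) (by linarith [ht.1]) (by linarith [ht.2]) jm
  have hch := F.chain h1' hN1 (hNg.trans_le (min_le_left _ _)) hT' hT1 hlam hTE (s := s)
    (by linarith [ht.1, hs.1]) (by linarith [ht.2, hs.2]) hgood hx (a := a) (by linarith)
  have hsI : s ∈ Icc (-A) A := ⟨by linarith [ht.1, hs.1], by linarith [ht.2, hs.2]⟩
  have htI : t ∈ Icc (-A) A := ⟨by linarith [ht.1], by linarith [ht.2]⟩
  have hdist : |s - t| ≤ r := by rw [abs_le]; constructor <;> linarith [hs.1, hs.2]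
  have q : ∀ y : E2, ‖y‖ ≤ R → |w j s y - w j t y| ≤ γ / 16 := fun y hy =>
    je s hsI t htI y y hy hy hdist (by rw [sub_self, norm_zero]; exact hr.le)
  have q1 := abs_le.1 (q (x + a) ((norm_add_le _ _).trans (by linarith)))
  have q2 := abs_le.1 (q (x - a) ((norm_sub_le _ _).trans (by linarith)))
  have q3 := abs_le.1 (q x (by linarith))
  have e1 : 2 * K * h * ‖a‖ ≤ 2 * K * h * R :=
    mul_le_mul_of_nonneg_left (by linarith) (by positivity)
  have e2 : (N : ℝ) * g ≤ γ / 32 := hNg.trans_le (min_le_right _ _)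
  have e3 : ‖a‖ ^ 2 / T = 1 / T * ‖a‖ ^ 2 := by ring
  linarith

end SecondDiff

/-- The transversal second differences of a flow are bounded quadratically. -/
theorem secondDiff : SecondDiffProp := by
  intro A R K hA hR hK
  obtain ⟨C₁, hC₁, h₁⟩ := SecondDiff.lower_bound hA hR hK
  obtain ⟨C₂, hC₂, h₂⟩ := SecondDiff.lower_bound (K := 2 * K) hA hR (by linarith)
  refine ⟨C₁ + C₂, A / 4, R / 16, by linarith, by linarith, by linarith, by linarith, by linarith,
    fun w c l bad hF γ hγ => ?_⟩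
  filter_upwards [h₁ w c l bad hF γ hγ, h₂ _ _ _ _ (hF.flip hK.le) γ hγ] with j j1 j2 t ht x a hx ha
  have e1 := j1 t ht x a hx ha
  have e2 := j2 (-t) ⟨by linarith [ht.2], by linarith [ht.1]⟩ x a hx ha
  rw [neg_neg] at e2
  have n1 := mul_nonneg hC₁.le (sq_nonneg ‖a‖)
  have n2 := mul_nonneg hC₂.le (sq_nonneg ‖a‖)
  rw [abs_le]
  constructor <;> nlinarith

end Vale.Agent.P080C1.Dichotomy
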